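import Vale.Agent.P054.Final
import Vale.Agent.P054.Defs

/-!
P054 (distinct distances in dimension at least three): sets containing a positive proportion of a
similar copy of an integer grid determine the conjectured number of distinct distances.
-/

open Finset VP054

theorem Vale.Agent.Results.P054.DenseInGrid.result :
    ∃ c : ℝ, 0 < c ∧ ∀ d : ℕ, 3 ≤ d → ∀ (t : ℕ)
      (ρ : EuclideanSpace ℝ (Fin d) → EuclideanSpace ℝ (Fin d)) (lam : ℝ), 0 < lam →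
      (∀ x y, dist (ρ x) (ρ y) = lam * dist x y) →
      ∀ P S : Finset (EuclideanSpace ℝ (Fin d)), S ⊆ P →
        (∀ p ∈ S, ∃ x ∈ grid d t, ρ x = p) → 2 ≤ S.card →
        ∀ α : ℝ, 0 < α → α * (t : ℝ) ^ d ≤ (S.card : ℝ) →
          c * α ^ 2 * (t : ℝ) ^ 2 ≤ (numDist P : ℝ) ∧
          ∀ K : ℝ, 0 < K → (P.card : ℝ) ≤ K * (t : ℝ) ^ d →
            c * α ^ 2 * K ^ (-(2 / (d : ℝ))) * (P.card : ℝ) ^ (2 / (d : ℝ)) ≤ (numDist P : ℝ) := by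
  refine ⟨1 / 50016, by norm_num, ?_⟩
  intro d hd t ρ lam hlam hρ P S hSP hS h2 α hα hαS
  obtain ⟨m, rfl⟩ : ∃ m, d = 3 + m := ⟨d - 3, by omega⟩
  obtain ⟨ht, hcore⟩ := main ρ lam hlam hρ P S hSP hS h2
  have htR : (0 : ℝ) < (t : ℝ) := by exact_mod_cast ht
  have h3 : ((S.card : ℝ)) ^ 2 ≤ 50016 * (numDist P : ℝ) * (t : ℝ) ^ (2 * m + 4) := by
    exact_mod_cast hcore
  have h4 : α ^ 2 * (t : ℝ) ^ 2 * (t : ℝ) ^ (2 * m + 4) ≤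
      50016 * (numDist P : ℝ) * (t : ℝ) ^ (2 * m + 4) := by
    calc α ^ 2 * (t : ℝ) ^ 2 * (t : ℝ) ^ (2 * m + 4) = (α * (t : ℝ) ^ (3 + m)) ^ 2 := by ring
      _ ≤ (S.card : ℝ) ^ 2 := pow_le_pow_left₀ (by positivity) hαS 2
      _ ≤ _ := h3
  have h5 : α ^ 2 * (t : ℝ) ^ 2 ≤ 50016 * (numDist P : ℝ) :=
    le_of_mul_le_mul_right h4 (by positivity)
  have h6 : 1 / 50016 * α ^ 2 * (t : ℝ) ^ 2 ≤ (numDist P : ℝ) := by linarith
  refine ⟨h6, ?_⟩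
  intro K hK hPK
  refine le_trans ?_ h6
  have hd0 : (0 : ℝ) < ((3 + m : ℕ) : ℝ) := by positivity
  have h7 : (P.card : ℝ) ^ (2 / ((3 + m : ℕ) : ℝ)) ≤
      K ^ (2 / ((3 + m : ℕ) : ℝ)) * (t : ℝ) ^ 2 := by
    calc (P.card : ℝ) ^ (2 / ((3 + m : ℕ) : ℝ))
        ≤ (K * (t : ℝ) ^ (3 + m)) ^ (2 / ((3 + m : ℕ) : ℝ)) :=
          Real.rpow_le_rpow (by positivity) hPK (by positivity)
      _ = K ^ (2 / ((3 + m : ℕ) : ℝ)) * ((t : ℝ) ^ (3 + m)) ^ (2 / ((3 + m : ℕ) : ℝ)) :=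
          Real.mul_rpow hK.le (by positivity)
      _ = K ^ (2 / ((3 + m : ℕ) : ℝ)) * (t : ℝ) ^ 2 := by
          congr 1
          rw [← Real.rpow_natCast (t : ℝ) (3 + m), ← Real.rpow_mul htR.le]
          have : ((3 + m : ℕ) : ℝ) * (2 / ((3 + m : ℕ) : ℝ)) = (2 : ℕ) := by
            push_cast
            field_simp
          rw [this, Real.rpow_natCast]
  calc 1 / 50016 * α ^ 2 * K ^ (-(2 / ((3 + m : ℕ) : ℝ))) *
        (P.card : ℝ) ^ (2 / ((3 + m : ℕ) : ℝ))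
      ≤ 1 / 50016 * α ^ 2 * K ^ (-(2 / ((3 + m : ℕ) : ℝ))) *
        (K ^ (2 / ((3 + m : ℕ) : ℝ)) * (t : ℝ) ^ 2) :=
        mul_le_mul_of_nonneg_left h7 (by positivity)
    _ = 1 / 50016 * α ^ 2 * (t : ℝ) ^ 2 *
        (K ^ (-(2 / ((3 + m : ℕ) : ℝ))) * K ^ (2 / ((3 + m : ℕ) : ℝ))) := by ring
    _ = 1 / 50016 * α ^ 2 * (t : ℝ) ^ 2 := by
        rw [← Real.rpow_add hK, neg_add_cancel, Real.rpow_zero, mul_one]
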